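import Vale.Agent.P128.Basic
import Vale.Agent.P128.Flat.Connected

/-!
# P128: disjoint closed sets separate two points of the plane only if one of them does
-/

open Set Metric Filter
open scoped Topology

noncomputable section

namespace Vale.Agent.P128

variable {A B : Set ℂ} {x y : ℂ}

/-- Disjoint closed sets separate two points only if one of them does. -/
theorem separates_union (hA : IsClosed A) (hB : IsClosed B) (hd : Disjoint A B)
    (hy : y ∉ A ∪ B) (h : Separates (A ∪ B) x y) : Separates A x y ∨ Separates B x y := by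
  by_contra hn
  simp only [Separates, ne_eq, not_or, not_not] at hn
  have h1 : y ∈ connectedComponentIn Aᶜ x :=
    hn.1 ▸ mem_connectedComponentIn fun h' => hy (Or.inl h')
  have h2 : y ∈ connectedComponentIn Bᶜ x :=
    hn.2 ▸ mem_connectedComponentIn fun h' => hy (Or.inr h')
  exact h (connectedComponentIn_eq (Flat.janiszewski hA hB hd h1 h2))

/-- The outside of a disc is connected. -/
theorem isPreconnected_compl_ball {R : ℝ} (hR : 0 < R) : IsPreconnected (ball (0 : ℂ) R)ᶜ := by
  have he : (ball (0 : ℂ) R)ᶜ =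
      (fun q : ℝ × ℝ => circleMap 0 q.1 q.2) '' (Ici R ×ˢ univ) := by
    ext z
    refine ⟨fun hz => ⟨(‖z‖, z.arg), ⟨by simpa [dist_zero_right] using hz, mem_univ _⟩,
      by simp [circleMap, Complex.norm_mul_exp_arg_mul_I]⟩, ?_⟩
    rintro ⟨q, ⟨hq, -⟩, rfl⟩
    simpa [dist_zero_right, abs_of_nonneg (hR.le.trans hq)] using hq
  rw [he]
  exact (isPreconnected_Ici.prod isPreconnected_univ).image _
    (by unfold circleMap; fun_prop)

/-- Outside a big disc only the unbounded part of `K` separates, so changing a compact relatively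
open piece keeps separation. -/
theorem keepsSeparation_of_piece {K C L : Set ℂ} (hC : IsCompact C) (hCK : C ⊆ K)
    (hKo : IsClosed (K \ C)) (hsub : K \ C ⊆ L) (hLb : Bornology.IsBounded (L \ (K \ C))) :
    ∃ R₀ : ℝ, ∀ R, R₀ ≤ R → KeepsSeparation K L 0 R := by
  obtain ⟨R₀, hR₀, hb⟩ := (hC.isBounded.union hLb).subset_ball_lt 0 (0 : ℂ)
  refine ⟨R₀, fun R hR x y hx hy hs hL => ?_⟩
  simp only [mem_union, not_or] at hx hy
  have hout : ∀ z, z ∉ ball (0 : ℂ) R → z ∉ C ∧ z ∉ L \ (K \ C) := fun z hz =>
    ⟨fun h => hz (ball_subset_ball hR (hb (Or.inl h))),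
      fun h => hz (ball_subset_ball hR (hb (Or.inr h)))⟩
  have hnL : ∀ z, z ∉ ball (0 : ℂ) R → z ∉ K → z ∉ L := fun z h1 h2 h3 =>
    (hout z h1).2 ⟨h3, fun h => h2 h.1⟩
  rw [← sdiff_union_of_subset hCK] at hs
  rcases separates_union hKo hC.isClosed disjoint_sdiff_left
    (by rw [sdiff_union_of_subset hCK]; exact hy.2)
    hs with h | h
  · refine h (connectedComponentIn_eq ?_)
    exact connectedComponentIn_mono x (compl_subset_compl.2 hsub)
      (hL ▸ mem_connectedComponentIn (hnL y hy.1 hy.2))
  · have hext : IsPreconnected (ball (0 : ℂ) R)ᶜ := by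
      exact isPreconnected_compl_ball (hR₀.trans_le hR)
    refine h (connectedComponentIn_eq ?_)
    exact hext.subset_connectedComponentIn hx.1 (fun z hz => (hout z hz).1) hy.1

end Vale.Agent.P128
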